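import Crest.Agent.N325.Lst.ListR

-- ▼ part N325/Dj/Pq
section

/-!
# Row 325 (helper27): a priority queue with keys below `2 ^ B` (a bit trie over buckets)
-/

set_option autoImplicit false
open Finset

namespace Crest.Agent.N325.Dj

variable {α β : Type} {g : Gl}

theorem sp_forPI {σ : Type} (f : ℕ → σ → σ) (I : ℕ → σ → Prop) (n : ℕ) (s : σ)
    (h : ∀ j s, j < n → I j s → I (j + 1) (f j s)) (h0 : I 0 s) :
    Sp g (forP f n 0 s) fun s' t => I n s' ∧ t ≤ n + 1 :=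
  (sp_forN' (g := g) (f := fun j s => pure (f j s)) I (n := n) (i := 0) 0
    (fun j s _ hj k => ⟨h j s (by omega) k, le_rfl⟩) h0).mono fun _ _ k => by simpa using k

/-- occupancy of the key prefixes, buckets -/
abbrev PQ (α : Type) : Type := Arr (Arr Bool) × Arr (List α)

/-- some key with the prefix `i` is used -/
def Occ (bk : ℕ → List α) (t i : ℕ) : Prop := ∃ k, k / 2 ^ t = i ∧ bk k ≠ []

/-- the invariant of the queue -/
def Ok (B r : ℕ) (q : PQ α) : Prop :=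
  (∀ t ≤ B, ∀ i, (q.1.get t).get i = true ↔ Occ q.2.get t i) ∧ ∀ k, q.2.get k ≠ [] → k ≤ r

/-- the empty queue -/
def emp (α : Type) : PQ α := (Arr.cst (Arr.cst false), Arr.cst [])

theorem ok_emp (B r : ℕ) : Ok B r (emp α) :=
  ⟨fun _ _ _ => by simp [emp, Occ], fun _ h => absurd rfl h⟩

/-- the number of items -/
def cnt (r : ℕ) (q : PQ α) : ℕ := ∑ k ∈ range (r + 1), (q.2.get k).length

theorem occ_succ (bk : ℕ → List α) (t i : ℕ) :
    Occ bk (t + 1) i ↔ Occ bk t (2 * i) ∨ Occ bk t (2 * i + 1) := by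
  simp only [Occ, pow_succ, ← Nat.div_div_eq_div_mul]
  constructor
  · rintro ⟨k, e, h⟩
    rcases Nat.mod_two_eq_zero_or_one (k / 2 ^ t) with m | m
    · exact .inl ⟨k, by omega, h⟩
    · exact .inr ⟨k, by omega, h⟩
  · rintro (⟨k, e, h⟩ | ⟨k, e, h⟩) <;> exact ⟨k, by omega, h⟩

/-- recompute one level -/
def putS (j : ℕ) (s : ℕ × Arr (Arr Bool)) : ℕ × Arr (Arr Bool) :=
  (s.1 / 2, s.2.set (j + 1) ((s.2.get (j + 1)).set (s.1 / 2)
    ((s.2.get j).get (2 * (s.1 / 2)) || (s.2.get j).get (2 * (s.1 / 2) + 1))))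

/-- replace the bucket `k` by `l` -/
def putQ (B k : ℕ) (l : List α) (q : PQ α) : R (PQ α) :=
  forP putS B 0 (k, q.1.set 0 ((q.1.get 0).set k (!l.isEmpty))) >>= fun s => pure (s.2, q.2.set k l)

theorem occ_set {bk : Arr (List α)} {k t i : ℕ} (l : List α) (h : k / 2 ^ t ≠ i) :
    Occ (bk.set k l).get t i ↔ Occ bk.get t i :=
  exists_congr fun j => and_congr_right fun e => by
    rw [Arr.get_set_ne _ fun k' : j = k => h (k' ▸ e)]

theorem sp_putQ {B r k : ℕ} {q : PQ α} (h : Ok B r q) (l : List α) (hk : k ≤ r) :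
    Sp g (putQ B k l q) fun q' t => Ok B r q' ∧ q'.2 = q.2.set k l ∧ t ≤ B + 1 := by
  refine (sp_forPI putS (fun j s => s.1 = k / 2 ^ j ∧
    (∀ t ≤ j, ∀ i, (s.2.get t).get i = true ↔ Occ (q.2.set k l).get t i) ∧
    ∀ t, j < t → s.2.get t = q.1.get t) B _ (fun j s hj ⟨h1, h2, h3⟩ => ⟨?_, fun t ht i => ?_,
      fun t ht => ?_⟩) ⟨by simp, fun t ht i => ?_, fun t ht => ?_⟩).bind
      fun s t ⟨⟨_, h2, _⟩, c⟩ => ⟨⟨h2, fun j hj => ?_⟩, rfl, c⟩
  · rw [putS, h1, pow_succ, Nat.div_div_eq_div_mul]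
  · have e : s.1 / 2 = k / 2 ^ (j + 1) := by rw [h1, pow_succ, Nat.div_div_eq_div_mul]
    rcases ht.eq_or_lt with rfl | ht
    · simp only [putS, Arr.get_set_self, Arr.get_set]
      split_ifs with c
      · rw [c, occ_succ, Bool.or_eq_true, h2 j le_rfl, h2 j le_rfl]
      · rw [h3 _ (Nat.lt_succ_self j), occ_set l fun k' => c (e ▸ k'.symm), h.1 _ (by omega)]
    · simp only [putS]
      rw [Arr.get_set_ne _ ht.ne, h2 t (by omega)]
  · simp only [putS]
    rw [Arr.get_set_ne _ ht.ne', h3 t (by omega)]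
  · obtain rfl : t = 0 := by omega
    simp only [Arr.get_set_self, Arr.get_set]
    split_ifs with c
    · subst c; simp [Occ]
    · rw [occ_set l (by simpa using Ne.symm c), h.1 0 (Nat.zero_le _)]
  · exact Arr.get_set_ne _ ht.ne' _
  · by_cases e : j = k
    · exact e ▸ hk
    · exact h.2 j (by rwa [Arr.get_set_ne _ e] at hj)

theorem cnt_set {r k : ℕ} {q q' : PQ α} {l : List α} (hk : k ≤ r) (e : q'.2 = q.2.set k l) :
    cnt r q' + (q.2.get k).length = cnt r q + l.length := by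
  have hm : k ∈ range (r + 1) := mem_range.2 (by omega)
  unfold cnt
  rw [← add_sum_erase _ _ hm, ← add_sum_erase _ (fun u => (q.2.get u).length) hm, e,
    Arr.get_set_self, sum_congr rfl fun u hu => by rw [Arr.get_set_ne _ (ne_of_mem_erase hu)]]
  omega

/-- the queue is not empty -/
def nonE (B : ℕ) (q : PQ α) : Bool := (q.1.get B).get 0

theorem Ok.nonE {B r : ℕ} {q : PQ α} (h : Ok B r q) (hB : r < 2 ^ B) :
    nonE B q = true ↔ ∃ k, q.2.get k ≠ [] :=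
  (h.1 B le_rfl 0).trans <| exists_congr fun k =>
    and_iff_right_of_imp fun e => Nat.div_eq_of_lt ((h.2 k e).trans_lt hB)

/-- one step down the trie -/
def minS (h : Arr (Arr Bool)) (B r j p : ℕ) : ℕ :=
  if (h.get (B - (j + 1))).get (2 * p) = true then min (2 * p) r else min (2 * p + 1) r

/-- the least key in use -/
def minQ (B r : ℕ) (q : PQ α) : R ℕ := forP (minS q.1 B r) B 0 0

theorem sp_minQ {B r : ℕ} {q : PQ α} (h : Ok B r q) (hn : nonE B q = true) :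
    Sp g (minQ B r q) fun k t => q.2.get k ≠ [] ∧ (∀ j, q.2.get j ≠ [] → k ≤ j) ∧ t ≤ B + 1 := by
  refine (sp_forPI _ (fun j p => Occ q.2.get (B - j) p ∧
    ∀ i, q.2.get i ≠ [] → p ≤ i / 2 ^ (B - j)) B 0
    (fun j p hj ⟨h1, h2⟩ => ?_) ⟨(h.1 B le_rfl 0).1 hn, fun _ _ => Nat.zero_le _⟩).mono
    fun k t ⟨⟨h1, h2⟩, c⟩ => ?_
  · obtain ⟨u, e⟩ : ∃ u, B - j = u + 1 := ⟨B - (j + 1), by omega⟩
    have e' : B - (j + 1) = u := by omega
    have hr : ∀ i, Occ q.2.get u i → min i r = i := fun i ⟨k, e1, e2⟩ =>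
      min_eq_left (e1 ▸ (Nat.div_le_self _ _).trans (h.2 k e2))
    simp only [minS, e', e, pow_succ, ← Nat.div_div_eq_div_mul, occ_succ] at h1 h2 ⊢
    have h0 := h.1 u (by omega) (2 * p)
    split_ifs with c
    · rw [hr _ (h0.1 c)]
      exact ⟨h0.1 c, fun i hi => by have := h2 i hi; omega⟩
    · have h3 := h1.resolve_left (mt h0.2 c)
      rw [hr _ h3]
      refine ⟨h3, fun i hi => ?_⟩
      have := h2 i hi
      have : i / 2 ^ u ≠ 2 * p := fun k => c (h0.2 ⟨i, k, hi⟩)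
      omega
  · simp only [Nat.sub_self, pow_zero, Nat.div_one, Occ, exists_eq_left] at h1 h2
    exact ⟨h1, h2, c⟩

/-- insert the items `it b` with keys `key b ≤ r`, for the `b` in `l` with `c b` -/
def pushAll (B r : ℕ) (c : β → Bool) (key : β → ℕ) (it : β → α) (l : List β) (q : PQ α) :
    R (PQ α) :=
  foldL (fun b q => if c b = true ∧ key b ≤ r then
    putQ B (min (key b) r) (it b :: q.2.get (min (key b) r)) q else pure q) l q

theorem sp_pushAll {B r : ℕ} (c : β → Bool) (key : β → ℕ) (it : β → α) (l : List β) {q : PQ α}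
    (h : Ok B r q) : Sp g (pushAll B r c key it l q) fun q' t => Ok B r q' ∧
      (∀ j a, a ∈ q'.2.get j ↔ a ∈ q.2.get j ∨
        ∃ b ∈ l, c b = true ∧ key b ≤ r ∧ key b = j ∧ it b = a) ∧
      cnt r q' ≤ cnt r q + l.length ∧ t ≤ (B + 2) * l.length + 1 := by
  unfold pushAll
  induction l generalizing q with
  | nil => exact ⟨Nat.zero_le _, h, by simp, le_rfl, by simp⟩
  | cons b l ih =>
    refine ⟨Nat.zero_le _, sp_bind.2 (sp_ite.2 ⟨fun hc => ?_, fun hc => ?_⟩)⟩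
    · rw [min_eq_left hc.2]
      refine (sp_putQ h _ hc.2).mono fun q1 t ⟨h1, e, ht⟩ => (ih h1).mono
        fun q2 u ⟨h2, m, n, hu⟩ => ⟨h2, fun j a => ?_, ?_, ?_⟩
      · rw [m, e, Arr.get_set]
        simp only [List.mem_cons, exists_eq_or_imp, hc.1, hc.2, true_and]
        split_ifs with k
        · subst k; simp only [List.mem_cons, true_and]; tauto
        · simp [Ne.symm k]
      · have := cnt_set hc.2 e
        simp only [List.length_cons] at this ⊢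
        omega
      · rw [List.length_cons, mul_add]; omega
    · refine (ih h).mono fun q2 u ⟨h2, m, n, hu⟩ => ⟨h2, fun j a => ?_, ?_, ?_⟩
      · rw [m]
        simp only [List.mem_cons, exists_eq_or_imp]
        tauto
      · rw [List.length_cons]; omega
      · rw [List.length_cons, mul_add]; omega

end Crest.Agent.N325.Dj
end

-- ▼ part N325/Dj/Dij

/-!
# Row 325 (helper27): bounded Dijkstra search, local and with many sources
-/

set_option autoImplicit false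
open Finset

namespace Crest.Agent.N325.Dj

/-- a directed graph by accessors: the arcs at `x` are the `e ∈ adj x` with `ok x e`, they lead to
`hd x e` and have the length `ln x e` -/
structure Dg where
  adj : ℕ → List ℕ
  ok : ℕ → ℕ → Bool
  hd : ℕ → ℕ → ℕ
  ln : ℕ → ℕ → ℕ

/-- walks from the sources `S` (vertex, offset): end point and length -/
inductive Wk (G : Dg) (S : List (ℕ × ℕ)) : ℕ → ℕ → Prop
  | base {x d : ℕ} : (x, d) ∈ S → Wk G S x d
  | step {x d e : ℕ} : Wk G S x d → e ∈ G.adj x → G.ok x e = true →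
      Wk G S (G.hd x e) (d + G.ln x e)

/-- `x` at distance `d` is a source (`p.1 = x`) or is reached by the arc `p.2` from `p.1 ∈ l` -/
def Par (G : Dg) (S : List (ℕ × ℕ)) (D : ℕ → ℕ) (l : List ℕ) (x d : ℕ) (p : ℕ × ℕ) : Prop :=
  (p.1 = x ∧ (x, d) ∈ S) ∨ (p.1 ∈ l ∧ p.2 ∈ G.adj p.1 ∧ G.ok p.1 p.2 = true ∧ G.hd p.1 p.2 = x ∧
    d = D p.1 + G.ln p.1 p.2)

/-- every vertex of the list has its parent later in the list -/
def Tree (G : Dg) (S : List (ℕ × ℕ)) (D : ℕ → ℕ) (P : ℕ → ℕ × ℕ) : List ℕ → Prop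
  | [] => True
  | x :: l => Par G S D l x (D x) (P x) ∧ Tree G S D P l

/-- settled vertices (most recent first), distances, parents, marks -/
abbrev Out : Type := List ℕ × Arr ℕ × Arr (ℕ × ℕ) × Arr Bool

/-- the volume of a list of vertices -/
def vol (G : Dg) (L : List ℕ) : ℕ := (L.map fun x => 1 + (G.adj x).length).sum

/-- **the result of the search** -/
structure Res (G : Dg) (S : List (ℕ × ℕ)) (r : ℕ) (o : Out) : Prop where
  nd : o.1.Nodup
  vis : ∀ x, o.2.2.2.get x = true ↔ x ∈ o.1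
  wk : ∀ x ∈ o.1, Wk G S x (o.2.1.get x) ∧ o.2.1.get x ≤ r
  min : ∀ x d, Wk G S x d → d ≤ r → x ∈ o.1 ∧ o.2.1.get x ≤ d
  srt : o.1.Pairwise fun a b => o.2.1.get b ≤ o.2.1.get a
  tree : Tree G S o.2.1.get o.2.2.1.get o.1

/-- settle the vertex of the item `it` at distance `k` -/
def settle (G : Dg) (B r k : ℕ) (it : ℕ × ℕ × ℕ) (q : PQ (ℕ × ℕ × ℕ)) (o : Out) :
    R (PQ (ℕ × ℕ × ℕ) × Out) :=
  if o.2.2.2.get it.1 = true then pure (q, o) else
    pushAll B r (G.ok it.1) (fun e => k + G.ln it.1 e) (fun e => (G.hd it.1 e, it.1, e))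
      (G.adj it.1) q >>= fun q' =>
    pure (q', it.1 :: o.1, o.2.1.set it.1 k, o.2.2.1.set it.1 it.2, o.2.2.2.set it.1 true)

/-- one extraction -/
def body (G : Dg) (B r : ℕ) (s : PQ (ℕ × ℕ × ℕ) × Out) : R (PQ (ℕ × ℕ × ℕ) × Out) :=
  minQ B r s.1 >>= fun k => List.casesOn (motive := fun _ => R (PQ (ℕ × ℕ × ℕ) × Out))
    (s.1.2.get k) (pure s) fun it l => putQ B k l s.1 >>= fun q => settle G B r k it q s.2

/-- **bounded Dijkstra search** -/
def dij (G : Dg) (B r fu : ℕ) (S : List (ℕ × ℕ)) : R Out :=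
  pushAll B r (fun _ => true) Prod.snd (fun b => (b.1, b.1, 0)) S (emp _) >>= fun q =>
  whileF (fun s => nonE B s.1) (body G B r) fu
    (q, [], Arr.cst 0, Arr.cst (0, 0), Arr.cst false) >>= fun s => pure s.2

variable {G : Dg} {S : List (ℕ × ℕ)} {B r : ℕ} {g : Gl}

theorem Par.mono {D D' : ℕ → ℕ} {l l' : List ℕ} {x d : ℕ} {p : ℕ × ℕ} (h : Par G S D l x d p)
    (hl : ∀ y ∈ l, y ∈ l' ∧ D' y = D y) : Par G S D' l' x d p :=
  h.imp_right fun ⟨a, b, c, e, f⟩ => ⟨(hl _ a).1, b, c, e, (hl _ a).2 ▸ f⟩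

theorem Tree.congr {D D' : ℕ → ℕ} {P P' : ℕ → ℕ × ℕ} {l : List ℕ} (h : Tree G S D P l)
    (hl : ∀ y ∈ l, D' y = D y ∧ P' y = P y) : Tree G S D' P' l := by
  induction l with
  | nil => trivial
  | cons x l ih =>
    have e := hl x List.mem_cons_self
    have e' := fun y hy => hl y (List.mem_cons_of_mem _ hy)
    exact ⟨by rw [e.1, e.2]; exact h.1.mono fun y hy => ⟨hy, (e' y hy).1⟩, ih h.2 e'⟩

/-- `x` is settled at distance at most `d`, or waits with the key `d` -/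
def Cov (bk : ℕ → List (ℕ × ℕ × ℕ)) (o : Out) (x d : ℕ) : Prop :=
  (x ∈ o.1 ∧ o.2.1.get x ≤ d) ∨ ∃ it ∈ bk d, it.1 = x

/-- the invariant of the search -/
structure Inv (G : Dg) (S : List (ℕ × ℕ)) (r : ℕ) (bk : ℕ → List (ℕ × ℕ × ℕ)) (o : Out) :
    Prop where
  nd : o.1.Nodup
  vis : ∀ x, o.2.2.2.get x = true ↔ x ∈ o.1
  wk : ∀ x ∈ o.1, Wk G S x (o.2.1.get x) ∧ o.2.1.get x ≤ r
  srt : o.1.Pairwise fun a b => o.2.1.get b ≤ o.2.1.get a
  tree : Tree G S o.2.1.get o.2.2.1.get o.1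
  par : ∀ k, ∀ it ∈ bk k, Par G S o.2.1.get o.1 it.1 k it.2
  mon : ∀ k, ∀ it ∈ bk k, ∀ x ∈ o.1, o.2.1.get x ≤ k
  src : ∀ p ∈ S, p.2 ≤ r → Cov bk o p.1 p.2
  arc : ∀ y ∈ o.1, ∀ e ∈ G.adj y, G.ok y e = true → o.2.1.get y + G.ln y e ≤ r →
    Cov bk o (G.hd y e) (o.2.1.get y + G.ln y e)

variable {bk bk' : ℕ → List (ℕ × ℕ × ℕ)} {o : Out}

theorem Inv.res (h : Inv G S r bk o) (e : ∀ k, bk k = []) : Res G S r o := by
  have c : ∀ x d, Cov bk o x d → x ∈ o.1 ∧ o.2.1.get x ≤ d := fun x d c =>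
    c.resolve_right fun ⟨it, m, _⟩ => by simp [e] at m
  refine ⟨h.nd, h.vis, h.wk, fun x d w => ?_, h.srt, h.tree⟩
  induction w with
  | base m => exact fun k => c _ _ (h.src _ m k)
  | step _ m k ih =>
    intro hd
    obtain ⟨a, b⟩ := ih (by omega)
    obtain ⟨a', b'⟩ := c _ _ (h.arc _ a _ m k (by omega))
    exact ⟨a', by omega⟩

theorem Inv.wk_it (h : Inv G S r bk o) {k : ℕ} {it : ℕ × ℕ × ℕ} (m : it ∈ bk k) :
    Wk G S it.1 k := by
  rcases h.par k it m with ⟨_, a⟩ | ⟨a, b, c, d, e⟩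
  · exact .base a
  · rw [e, ← d]; exact .step (h.wk _ a).1 b c

/-- the extraction of an item whose vertex is settled -/
theorem Inv.skip (h : Inv G S r bk o) {k : ℕ} {it : ℕ × ℕ × ℕ} (m : it ∈ bk k) (hv : it.1 ∈ o.1)
    (h1 : ∀ j a, a ∈ bk' j → a ∈ bk j) (h2 : ∀ j a, a ∈ bk j → a ∈ bk' j ∨ (j = k ∧ a = it)) :
    Inv G S r bk' o := by
  have c : ∀ x d, Cov bk o x d → Cov bk' o x d := fun x d c => by
    rcases c with c | ⟨a, ma, rfl⟩
    · exact .inl c
    · rcases h2 d a ma with k' | ⟨rfl, rfl⟩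
      · exact .inr ⟨a, k', rfl⟩
      · exact .inl ⟨hv, h.mon _ _ m _ hv⟩
  exact ⟨h.nd, h.vis, h.wk, h.srt, h.tree, fun j a ma => h.par j a (h1 j a ma),
    fun j a ma => h.mon j a (h1 j a ma), fun p hp k => c _ _ (h.src p hp k),
    fun y hy e he k k' => c _ _ (h.arc y hy e he k k')⟩

/-- the extraction of an item whose vertex is new -/
theorem Inv.add (h : Inv G S r bk o) {k : ℕ} {it : ℕ × ℕ × ℕ} (m : it ∈ bk k) (hv : it.1 ∉ o.1)
    (hk : k ≤ r) (hmin : ∀ j a, a ∈ bk j → k ≤ j)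
    (h1 : ∀ j a, a ∈ bk' j → a ∈ bk j ∨ ∃ e ∈ G.adj it.1, G.ok it.1 e = true ∧
      k + G.ln it.1 e = j ∧ (G.hd it.1 e, it.1, e) = a)
    (h2 : ∀ j a, a ∈ bk j → a ∈ bk' j ∨ (j = k ∧ a = it))
    (h3 : ∀ e ∈ G.adj it.1, G.ok it.1 e = true → k + G.ln it.1 e ≤ r →
      (G.hd it.1 e, it.1, e) ∈ bk' (k + G.ln it.1 e)) :
    Inv G S r bk'
      (it.1 :: o.1, o.2.1.set it.1 k, o.2.2.1.set it.1 it.2, o.2.2.2.set it.1 true) := by
  have eD : ∀ y ∈ o.1, (o.2.1.set it.1 k).get y = o.2.1.get y := fun y hy =>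
    Arr.get_set_ne _ (fun e : y = it.1 => hv (e ▸ hy)) _
  have eP : ∀ y ∈ o.1, (o.2.2.1.set it.1 it.2).get y = o.2.2.1.get y := fun y hy =>
    Arr.get_set_ne _ (fun e : y = it.1 => hv (e ▸ hy)) _
  have c : ∀ x d, Cov bk o x d → Cov bk'
      (it.1 :: o.1, o.2.1.set it.1 k, o.2.2.1.set it.1 it.2, o.2.2.2.set it.1 true) x d :=
    fun x d c => by
    rcases c with c | ⟨a, ma, rfl⟩
    · exact .inl ⟨List.mem_cons_of_mem _ c.1, (eD _ c.1).trans_le c.2⟩
    · rcases h2 d a ma with k' | ⟨rfl, rfl⟩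
      · exact .inr ⟨a, k', rfl⟩
      · exact .inl ⟨List.mem_cons_self, (Arr.get_set_self _ _ _).le⟩
  have hle : ∀ x ∈ it.1 :: o.1, (o.2.1.set it.1 k).get x ≤ k := fun x hx => by
    rcases List.mem_cons.1 hx with rfl | hx
    · exact (Arr.get_set_self _ _ _).le
    · exact (eD x hx).trans_le (h.mon _ _ m x hx)
  refine ⟨List.nodup_cons.2 ⟨hv, h.nd⟩, fun x => ?_, fun x hx => ?_,
    List.pairwise_cons.2 ⟨fun y hy => ?_, h.srt.imp_of_mem fun ha hb k' => ?_⟩,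
    ⟨?_, h.tree.congr fun y hy => ⟨eD y hy, eP y hy⟩⟩, fun j a ma => ?_, fun j a ma x hx => ?_,
    fun p hp k => c _ _ (h.src p hp k), fun y hy e he k1 k2 => ?_⟩
  · simp only [Arr.get_set, List.mem_cons, ← h.vis]
    split_ifs with e <;> simp [e]
  · rcases List.mem_cons.1 hx with rfl | hx
    · simp only [Arr.get_set_self]; exact ⟨h.wk_it m, hk⟩
    · simp only [eD x hx]; exact h.wk x hx
  · simp only [Arr.get_set_self]; exact hle y (List.mem_cons_of_mem _ hy)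
  · simp only [eD _ ha, eD _ hb]; exact k'
  · simp only [Arr.get_set_self]; exact (h.par k it m).mono fun y hy => ⟨hy, eD y hy⟩
  · rcases h1 j a ma with k' | ⟨e, he, k1, rfl, rfl⟩
    · exact (h.par j a k').mono fun y hy => ⟨List.mem_cons_of_mem _ hy, eD y hy⟩
    · exact .inr ⟨List.mem_cons_self, he, k1, rfl, by simp only [Arr.get_set_self]⟩
  · rcases h1 j a ma with k' | ⟨e, he, k1, rfl, rfl⟩
    · exact (hle x hx).trans (hmin j a k')
    · exact (hle x hx).trans (Nat.le_add_right _ _)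
  · rcases List.mem_cons.1 hy with rfl | hy
    · simp only [Arr.get_set_self] at k2 ⊢
      exact .inr ⟨_, h3 e he k1 k2, rfl⟩
    · simp only [eD y hy] at k2 ⊢
      exact c _ _ (h.arc y hy e he k1 k2)

theorem sp_body {s : PQ (ℕ × ℕ × ℕ) × Out} (hq : Ok B r s.1) (h : Inv G S r s.1.2.get s.2)
    (hn : nonE B s.1 = true) : Sp g (body G B r s) fun s' t => Ok B r s'.1 ∧
      Inv G S r s'.1.2.get s'.2 ∧ cnt r s'.1 + vol G s.2.1 + 1 ≤ cnt r s.1 + vol G s'.2.1 ∧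
      t + (B + 2) * vol G s.2.1 ≤ 2 * B + 2 + (B + 2) * vol G s'.2.1 := by
  refine (sp_minQ hq hn).bind fun k t ⟨ne, hmin, ht⟩ => ?_
  have hk := hq.2 k ne
  cases e : s.1.2.get k with
  | nil => exact absurd e ne
  | cons it l =>
    refine (sp_putQ hq l hk).bind fun q u ⟨hq1, e1, hu⟩ => ?_
    have hc := cnt_set hk e1
    rw [e, List.length_cons] at hc
    have m : it ∈ s.1.2.get k := e ▸ List.mem_cons_self
    have h1 : ∀ j a, a ∈ q.2.get j → a ∈ s.1.2.get j := fun j a ma => by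
      rw [e1, Arr.get_set] at ma
      split_ifs at ma with c
      · rw [c, e]; exact List.mem_cons_of_mem _ ma
      · exact ma
    have h2 : ∀ j a, a ∈ s.1.2.get j → a ∈ q.2.get j ∨ (j = k ∧ a = it) := fun j a ma => by
      rw [e1, Arr.get_set]
      split_ifs with c
      · rw [c, e] at ma; exact (List.mem_cons.1 ma).symm.imp_right fun k => ⟨c, k⟩
      · exact .inl ma
    refine sp_ite.2 ⟨fun hv => ⟨hq1, h.skip m ((h.vis _).1 hv) h1 h2, by dsimp only; omega,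
      by dsimp only; omega⟩, fun hv => ?_⟩
    refine (sp_pushAll _ _ _ _ hq1).bind fun q' w ⟨hq2, mm, hc2, hw⟩ => ⟨hq2, h.add m
      (mt (h.vis _).2 hv) hk (fun j a ma => hmin j (List.ne_nil_of_mem ma)) (fun j a ma => ?_)
      (fun j a ma => (h2 j a ma).imp_left fun k => (mm j a).2 (.inl k))
      (fun e he k1 k2 => (mm _ _).2 (.inr ⟨e, he, k1, k2, rfl, rfl⟩)), ?_, ?_⟩
    · exact ((mm j a).1 ma).imp (h1 j a) fun ⟨e, he, k1, _, k3⟩ => ⟨e, he, k1, k3⟩
    · simp only [vol, List.map_cons, List.sum_cons]; omega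
    · simp only [vol, List.map_cons, List.sum_cons, mul_add, mul_one]; omega

/-- **Dijkstra**: `Vol` bounds the volume of the ball -/
theorem sp_dij {fu Vol : ℕ} (hB : r < 2 ^ B)
    (hV : ∀ L : List ℕ, L.Nodup → (∀ x ∈ L, ∃ d ≤ r, Wk G S x d) → vol G L ≤ Vol)
    (hfu : S.length + Vol < fu) : Sp g (dij G B r fu S) fun o t => Res G S r o ∧
      t ≤ (3 * B + 5) * (S.length + vol G o.1) + 2 := by
  refine (sp_pushAll _ _ _ _ (ok_emp B r)).bind fun q t ⟨hq, mm, hc, ht⟩ => ?_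
  have c0 : cnt r (emp (ℕ × ℕ × ℕ)) = 0 := by simp [cnt, emp]
  refine (sp_whileF (fun (s : PQ (ℕ × ℕ × ℕ) × Out) u => Ok B r s.1 ∧ Inv G S r s.1.2.get s.2 ∧
    u + (2 * B + 3) * cnt r s.1 ≤ (2 * B + 3) * S.length + (3 * B + 5) * vol G s.2.1)
    (fun s => cnt r s.1 + (Vol - vol G s.2.1)) (fun s u ⟨a, b, c⟩ hn => (sp_body a b hn).mono
      fun s' w ⟨a', b', c', d'⟩ => ⟨⟨a', b', ?_⟩, ?_⟩) (t := 0) ⟨hq, ?_, ?_⟩ ?_).bind
      fun s u ⟨hn, u', e, a, b, c⟩ => ⟨b.res fun k => ?_, ?_⟩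
  · have := Nat.mul_le_mul_left (2 * B + 3) c'
    nlinarith
  · have := hV _ b'.nd fun x hx => ⟨_, (b'.wk x hx).2, (b'.wk x hx).1⟩
    have := hV _ b.nd fun x hx => ⟨_, (b.wk x hx).2, (b.wk x hx).1⟩
    omega
  · refine ⟨List.nodup_nil, by simp, by simp, .nil, trivial, fun k it m => ?_, by simp,
      fun p hp k => .inr ⟨_, (mm _ _).2 (.inr ⟨p, hp, rfl, k, rfl, rfl⟩), rfl⟩, by simp⟩
    rcases (mm _ _).1 m with k' | ⟨b, hb, _, _, rfl, rfl⟩
    · simp [emp] at k'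
    · exact .inl ⟨rfl, hb⟩
  · have := Nat.mul_le_mul_left (2 * B + 3) (c0 ▸ hc)
    simpa [vol] using this
  · simp only [vol, List.map_nil, List.sum_nil]; omega
  · by_contra k'
    exact Bool.false_ne_true (hn.symm.trans ((a.nonE hB).2 ⟨k, k'⟩))
  · nlinarith [Nat.zero_le ((2 * B + 3) * cnt r s.1)]

/-- the volume of a finite vertex set that contains the ball -/
theorem vol_le {V : Finset ℕ} (hV : ∀ x d, Wk G S x d → d ≤ r → x ∈ V) (L : List ℕ) (nd : L.Nodup)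
    (h : ∀ x ∈ L, ∃ d ≤ r, Wk G S x d) : vol G L ≤ ∑ x ∈ V, (1 + (G.adj x).length) := by
  rw [vol, ← List.sum_toFinset _ nd]
  exact sum_le_sum_of_subset fun x hx =>
    let ⟨d, a, b⟩ := h x (List.mem_toFinset.1 hx); hV x d b a

theorem Res.mem {o : Out} (h : Res G S r o) {x : ℕ} : x ∈ o.1 ↔ ∃ d ≤ r, Wk G S x d :=
  ⟨fun m => ⟨_, (h.wk x m).2, (h.wk x m).1⟩, fun ⟨d, a, b⟩ => (h.min x d b a).1⟩

theorem Res.le {o : Out} (h : Res G S r o) {x d : ℕ} (m : x ∈ o.1) (w : Wk G S x d) :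
    o.2.1.get x ≤ d :=
  (le_total d r).elim (fun k => (h.min x d w k).2) fun k => (h.wk x m).2.trans k

theorem Tree.par {D : ℕ → ℕ} {P : ℕ → ℕ × ℕ} {l1 l2 : List ℕ} {x : ℕ}
    (h : Tree G S D P (l1 ++ x :: l2)) : Par G S D l2 x (D x) (P x) := by
  induction l1 with
  | nil => exact h.1
  | cons a l ih => exact ih h.2

end Crest.Agent.N325.Dj
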